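import Vale.Agent.P133OG.Core
import Vale.Agent.P133OC.Sa
import Vale.Agent.P133OF.Defs

/-!
P133: two orthogonal dilations.
-/

namespace Vale.Agent.P133OG

open Vale.Agent.P133.H832

universe u

variable {A : Type u} [NonUnitalCStarAlgebra A] [PartialOrder A] [StarOrderedRing A]

variable (A) in
/-- the identity is approximated by excised sums with small total budget -/
def Exs : Prop := ∀ F : Finset A, (∀ x ∈ F, IsSelfAdjoint x) → ∀ ε : ℝ, 0 < ε →
  ∃ (κ' : Type) (_ : Fintype κ') (n : κ' → ℕ) (b : κ' → A) (y c : ∀ k, Fin (n k) → A) (κ : κ' → ℝ),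
    (∀ x ∈ F, ∀ k, Rx x (b k) (y k) (κ k)) ∧
    (∀ x ∈ F, ‖∑ k, star (zz (y k) (b k) (c k)) * x * zz (y k) (b k) (c k) - x‖ ≤ ε) ∧
    ‖∑ k, bu (κ k) (b k) (c k)‖ ≤ ε

theorem pre_of_exs (hA : Diag A) (h : Exs A) : P133OC.Pre A :=
  P133OC.pre_of_sa fun F hs ε hε => by
    obtain ⟨κ', _, n, b, y, c, κ, h1, h2, h3⟩ := h F hs (ε / 6) (by positivity)
    obtain ⟨d, hd⟩ := core hA F.finite_toSet hs h1 (by positivity) h2 h3
    exact ⟨d 0, d 1, fun x hx => ⟨((hd x hx).1 0).trans_eq (by ring),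
      ((hd x hx).1 1).trans_eq (by ring), ((hd x hx).2 0 1 zero_ne_one).trans (by linarith)⟩⟩

/-- **CEN (iii)** -/
theorem cen3 (hA : Diag A) (h : P133OF.Cen2 A) : P133OC.Pre A :=
  pre_of_exs hA fun F hs ε hε => by
    obtain ⟨m, D, h1, h2⟩ := h F hs ε hε
    exact ⟨Fin m, inferInstance, fun k => (D k).n, fun k => (D k).b, fun k => (D k).y,
      fun k => (D k).c, fun k => (D k).κ, fun x hx k => ⟨(D k).ψ x, (D k).exc x hx⟩, h1, h2⟩

theorem cen3_pi (hA : P133.Statement.PurelyInfinite A) (h : P133OF.Cen2 A) : P133OC.Pre A :=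
  cen3 (diag_of_pi hA) h

end Vale.Agent.P133OG
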