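import Vale.Agent.P133OG.Diag

/-!
P133: from an approximation of the identity by excised sums to two orthogonal dilations.
-/

open Filter Topology

namespace Vale.Agent.P133OG

open Vale.Agent.P133.H832

universe u

variable {A : Type u} [NonUnitalCStarAlgebra A] {ι : Type*}

theorem diag_seq [Finite ι] (hA : Diag A) (a : ι → A) (M : Set A) (hM : M.Finite) :
    ∃ t : ℕ → ι → A, (∀ i, Tendsto (fun N => star (a i * t N i) * (a i * t N i)) atTop
      (𝓝 (star (a i) * a i))) ∧ ∀ i j, i ≠ j → ∀ m ∈ M,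
        Tendsto (fun N => star (a i * t N i) * m * (a j * t N j)) atTop (𝓝 0) := by
  choose t _ h2 h3 using fun N : ℕ => diag_rel hA a M hM (Nat.one_div_pos_of_nat (α := ℝ) (n := N))
  refine ⟨t, fun i => ?_, fun i j h m hm => ?_⟩
  · rw [tendsto_iff_norm_sub_tendsto_zero]
    exact squeeze_zero (fun _ => norm_nonneg _) (fun N => (h2 N i).le)
      tendsto_one_div_add_atTop_nhds_zero_nat
  · rw [tendsto_zero_iff_norm_tendsto_zero]
    exact squeeze_zero (fun _ => norm_nonneg _) (fun N => ((h3 N i j h).2 m hm).le)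
      tendsto_one_div_add_atTop_nhds_zero_nat

theorem tend_pair {T : ℕ → A} {b : A} (h : Tendsto (fun N => star (T N) * T N) atTop
    (𝓝 (star b * b))) (c c' : A) :
    Tendsto (fun N => star (T N * c) * (T N * c')) atTop (𝓝 (star (b * c) * (b * c'))) := by
  have h1 := (h.const_mul (star c)).mul_const c'
  simpa only [star_mul, mul_assoc] using h1

theorem tend_cross {n n' : ℕ} {T T' : ℕ → A} {y c : Fin n → A} {y' c' : Fin n' → A} {x : A}
    (h : ∀ i j, Tendsto (fun N => star (T N) * (star (y i) * x * y' j) * T' N) atTop (𝓝 0)) :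
    Tendsto (fun N => star (∑ i, y i * T N * c i) * x * ∑ j, y' j * T' N * c' j) atTop (𝓝 0) := by
  have h1 := tendsto_finsetSum Finset.univ fun j _ => tendsto_finsetSum Finset.univ fun i _ =>
    ((h i j).const_mul (star (c i))).mul_const (c' j)
  simpa only [star_sum, Finset.sum_mul, Finset.mul_sum, star_mul, mul_assoc, mul_zero, zero_mul,
    Finset.sum_const_zero] using h1

variable [PartialOrder A] [StarOrderedRing A]

theorem norm_le_three {w v : A} (h1 : w ≤ v) (h2 : -w ≤ v) : ‖w‖ ≤ 3 * ‖v‖ := by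
  have h3 : ‖w + v‖ ≤ ‖v + v‖ := CStarAlgebra.norm_le_norm_of_nonneg_of_le
    (neg_le_iff_add_nonneg'.1 h2) (add_le_add h1 le_rfl)
  have h4 := norm_sub_le (w + v) v
  rw [add_sub_cancel_right] at h4
  linarith [norm_add_le v v]

/-- the element `z` -/
def zz {n : ℕ} (y : Fin n → A) (b : A) (c : Fin n → A) : A := ∑ j, y j * b * c j

/-- the scalar part -/
def ps {n : ℕ} (ψ : Fin n → Fin n → ℂ) (b : A) (c : Fin n → A) : A :=
  ∑ i, ∑ j, ψ i j • (star (b * c i) * (b * c j))

/-- the budget -/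
noncomputable def bu {n : ℕ} (κ : ℝ) (b : A) (c : Fin n → A) : A := κ • ∑ i, star (b * c i) * (b * c i)

/-- relative excision at one element -/
def Rx {n : ℕ} (x b : A) (y : Fin n → A) (κ : ℝ) : Prop := ∃ ψ : Fin n → Fin n → ℂ,
  ∀ c : Fin n → A, (star (zz y b c) * x * zz y b c - ps ψ b c) +
      star (star (zz y b c) * x * zz y b c - ps ψ b c) ≤ bu κ b c ∧
    -((star (zz y b c) * x * zz y b c - ps ψ b c) +
      star (star (zz y b c) * x * zz y b c - ps ψ b c)) ≤ bu κ b c

omit [StarOrderedRing A] [PartialOrder A] in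
theorem zz_mul {n : ℕ} (y : Fin n → A) (b t : A) (c : Fin n → A) :
    zz y b (fun j => t * c j) = ∑ j, y j * (b * t) * c j := by
  simp only [zz, mul_assoc]

theorem diag_part {κ' : Type} [Fintype κ'] {n : κ' → ℕ} {x : A} (hx : IsSelfAdjoint x) {b : κ' → A}
    {y c : ∀ k, Fin (n k) → A} {κ : κ' → ℝ} (h : ∀ k, Rx x (b k) (y k) (κ k)) {t : ℕ → κ' → A}
    (ht : ∀ k, Tendsto (fun N => star (b k * t N k) * (b k * t N k)) atTop (𝓝 (star (b k) * b k)))
    {ε : ℝ} (hε : 0 < ε) (hS : ‖∑ k, bu (κ k) (b k) (c k)‖ ≤ ε) :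
    ∀ᶠ N in atTop, ‖∑ k, star (zz (y k) (b k) fun j => t N k * c k j) * x *
      (zz (y k) (b k) fun j => t N k * c k j) -
        ∑ k, star (zz (y k) (b k) (c k)) * x * zz (y k) (b k) (c k)‖ < 4 * ε := by
  choose ψ hψ using h
  have h1 : ∀ k, Tendsto (fun N => ps (ψ k) (b k) fun j => t N k * c k j) atTop
      (𝓝 (ps (ψ k) (b k) (c k))) := fun k => by
    simp only [ps, ← mul_assoc (b k)]
    exact tendsto_finsetSum _ fun i _ => tendsto_finsetSum _ fun j _ =>
      (tend_pair (ht k) _ _).const_smul _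
  have h2 : ∀ k, Tendsto (fun N => bu (κ k) (b k) fun j => t N k * c k j) atTop
      (𝓝 (bu (κ k) (b k) (c k))) := fun k => by
    simp only [bu, ← mul_assoc (b k)]
    exact (tendsto_finsetSum _ fun i _ => tend_pair (ht k) _ _).const_smul _
  set R : ℕ → A := fun N => ∑ k, ((ps (ψ k) (b k) fun j => t N k * c k j) - ps (ψ k) (b k) (c k))
    with hR
  have h3 : Tendsto R atTop (𝓝 0) := by
    have h4 := tendsto_finsetSum Finset.univ fun k _ => (h1 k).sub_const (ps (ψ k) (b k) (c k))
    simpa only [sub_self, Finset.sum_const_zero] using h4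
  have h4 := ((tendsto_finsetSum Finset.univ fun k _ => h2 k).add_const
    (∑ k, bu (κ k) (b k) (c k))).norm
  have h5 := (h4.const_mul 3).add (h3.norm.const_mul 2)
  have h6 : 3 * ‖∑ k, bu (κ k) (b k) (c k) + ∑ k, bu (κ k) (b k) (c k)‖ + 2 * ‖(0 : A)‖ <
      8 * ε := by
    rw [norm_zero]
    linarith [norm_add_le (∑ k, bu (κ k) (b k) (c k)) (∑ k, bu (κ k) (b k) (c k))]
  filter_upwards [h5.eventually_lt_const h6] with N hN
  set E := ∑ k, star (zz (y k) (b k) fun j => t N k * c k j) * x *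
      (zz (y k) (b k) fun j => t N k * c k j) -
        ∑ k, star (zz (y k) (b k) (c k)) * x * zz (y k) (b k) (c k) with hE
  have h7 : ∀ z : A, star (star z * x * z) = star z * x * z := fun z => by
    rw [star_mul, star_mul, star_star, hx.star_eq, mul_assoc]
  set D : ∀ k, (Fin (n k) → A) → A := fun k c =>
    (star (zz (y k) (b k) c) * x * zz (y k) (b k) c - ps (ψ k) (b k) c) +
      star (star (zz (y k) (b k) c) * x * zz (y k) (b k) c - ps (ψ k) (b k) c) with hD
  have h8 : E + E - (R N + star (R N)) =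
      ∑ k, D k (fun j => t N k * c k j) + -∑ k, D k (c k) := by
    simp only [hE, hR, hD, star_sub, h7, star_sum, Finset.sum_add_distrib, Finset.sum_sub_distrib]
    abel
  have h9 : ‖E + E - (R N + star (R N))‖ ≤ 3 * ‖∑ k, bu (κ k) (b k) (fun j => t N k * c k j) +
      ∑ k, bu (κ k) (b k) (c k)‖ := by
    rw [h8]
    refine norm_le_three (add_le_add (Finset.sum_le_sum fun k _ => (hψ k _).1) ?_) ?_
    · rw [← Finset.sum_neg_distrib]
      exact Finset.sum_le_sum fun k _ => (hψ k _).2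
    · rw [neg_add, neg_neg, ← Finset.sum_neg_distrib]
      exact add_le_add (Finset.sum_le_sum fun k _ => (hψ k _).2)
        (Finset.sum_le_sum fun k _ => (hψ k _).1)
  have h10 := norm_add_le (E + E - (R N + star (R N))) (R N + star (R N))
  have h11 := norm_add_le (R N) (star (R N))
  rw [sub_add_cancel, ← two_smul ℝ E, norm_smul, Real.norm_two, two_smul] at h10
  rw [norm_star] at h11
  linarith

/-- two orthogonal dilations on a finite set of selfadjoint elements -/
theorem core {κ' : Type} [Fintype κ'] (hA : Diag A) {F : Set A} (hF : F.Finite)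
    (hs : ∀ x ∈ F, IsSelfAdjoint x) {n : κ' → ℕ} {b : κ' → A} {y c : ∀ k, Fin (n k) → A}
    {κ : κ' → ℝ} (h : ∀ x ∈ F, ∀ k, Rx x (b k) (y k) (κ k)) {ε : ℝ} (hε : 0 < ε)
    (h1 : ∀ x ∈ F, ‖∑ k, star (zz (y k) (b k) (c k)) * x * zz (y k) (b k) (c k) - x‖ ≤ ε)
    (hS : ‖∑ k, bu (κ k) (b k) (c k)‖ ≤ ε) :
    ∃ d : Fin 2 → A, ∀ x ∈ F, (∀ a, ‖star (d a) * x * d a - x‖ < 6 * ε) ∧
      ∀ a a', a ≠ a' → ‖star (d a) * x * d a'‖ < ε := by
  classical
  obtain ⟨t, k1, k2⟩ := diag_seq hA (fun p : κ' × Fin 2 => b p.1)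
    (⋃ x ∈ F, Set.range fun q : (Σ k, Fin (n k)) × Σ k, Fin (n k) =>
      star (y q.1.1 q.1.2) * x * y q.2.1 q.2.2) (hF.biUnion fun _ _ => Set.finite_range _)
  set Z : ℕ → κ' → Fin 2 → A := fun N k a => zz (y k) (b k) fun j => t N (k, a) * c k j with hZ
  have k3 : ∀ x ∈ F, ∀ k a l a', (k, a) ≠ (l, a') →
      Tendsto (fun N => star (Z N k a) * x * Z N l a') atTop (𝓝 0) := fun x hx k a l a' hne => by
    simp only [hZ, zz_mul]
    exact tend_cross fun i j => k2 _ _ hne _ (Set.mem_biUnion hx ⟨(⟨k, i⟩, ⟨l, j⟩), rfl⟩)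
  have k4 : ∀ N x a a', star (∑ k, Z N k a) * x * ∑ l, Z N l a' =
      ∑ k, ∑ l, star (Z N k a) * x * Z N l a' := fun N x a a' => by
    rw [star_sum, Finset.sum_mul, Finset.sum_mul_sum]
  have k5 : ∀ x ∈ F, ∀ᶠ N in atTop, (∀ a, ‖star (∑ k, Z N k a) * x * ∑ k, Z N k a - x‖ < 6 * ε) ∧
      ∀ a a', a ≠ a' → ‖star (∑ k, Z N k a) * x * ∑ k, Z N k a'‖ < ε := fun x hx => by
    refine (eventually_all.2 fun a => ?_).and (eventually_all.2 fun a => eventually_all.2
      fun a' => ?_)
    · have k6 : Tendsto (fun N => ∑ k, ∑ l ∈ Finset.univ.erase k, star (Z N k a) * x * Z N l a)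
          atTop (𝓝 0) := by
        have k7 := tendsto_finsetSum Finset.univ fun k _ => tendsto_finsetSum
          (Finset.univ.erase k) fun l hl => k3 x hx k a l a fun he =>
            Finset.ne_of_mem_erase hl (congrArg Prod.fst he).symm
        simpa only [Finset.sum_const_zero] using k7
      filter_upwards [diag_part (hs x hx) (h x hx) (t := fun N k => t N (k, a))
        (fun k => k1 (k, a)) hε hS, k6.norm.eventually_lt_const (norm_zero (E := A) ▸ hε)]
        with N k7 k8
      rw [k4, Finset.sum_congr rfl fun k _ => (Finset.add_sum_erase _ _ (Finset.mem_univ k)).symm,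
        Finset.sum_add_distrib, add_sub_right_comm,
        ← sub_add_sub_cancel _ (∑ k, star (zz (y k) (b k) (c k)) * x * zz (y k) (b k) (c k))]
      exact norm_add₃_le.trans_lt (by linarith [h1 x hx])
    · by_cases he : a = a'
      · exact .of_forall fun _ hne => (hne he).elim
      · have k7 := tendsto_finsetSum Finset.univ fun k _ => tendsto_finsetSum Finset.univ
          fun l _ => k3 x hx k a l a' fun h' => he (congrArg Prod.snd h')
        simp only [Finset.sum_const_zero] at k7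
        filter_upwards [k7.norm.eventually_lt_const (norm_zero (E := A) ▸ hε)] with N k8 _
        rwa [k4]
  obtain ⟨N, hN⟩ := ((eventually_all_finite hF).2 k5).exists
  exact ⟨fun a => ∑ k, Z N k a, hN⟩

end Vale.Agent.P133OG
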