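import Vale.Agent.P133.H832.Diag
import Mathlib.Analysis.CStarAlgebra.Unitary.Span

/-!
P133: diagonalization by contractions, relative to a finite set of multipliers.
-/

namespace Vale.Agent.P133OG

open Vale.Agent.P133.H832 Vale.Agent.P133.Statement

universe u

variable {A : Type u} [NonUnitalCStarAlgebra A] {ι : Type*}

theorem ex_mul (m : Unitization ℂ A) (x : A) : ∃ y : A, (y : Unitization ℂ A) = m * x :=
  ⟨m.fst • x + m.snd * x, by
    conv_rhs => rw [← Unitization.inl_fst_add_inr_snd_eq m, add_mul, Unitization.inl_mul_inr]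
    rw [Unitization.inr_add, Unitization.inr_mul]⟩

theorem diag_fin [Finite ι] (hA : Diag A) (a : ι → A) {ε : ℝ} (hε : 0 < ε) :
    ∃ d : ι → A, (∀ i, ‖d i‖ ≤ 1) ∧
      (∀ i, ‖star (a i * d i) * (a i * d i) - star (a i) * a i‖ < ε) ∧
      ∀ i j, i ≠ j → ‖star (a i * d i) * (a j * d j)‖ < ε := by
  obtain ⟨n, ⟨e⟩⟩ := Finite.exists_equiv_fin ι
  obtain ⟨d, h1, h2⟩ := hA n (fun k => a (e.symm k)) ε hε
  refine ⟨fun i => d (e i), fun i => h1 _, fun i => ?_, fun i j h => ?_⟩
  · simpa using h2 (e i) (e i)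
  · simpa [e.injective.ne h] using h2 (e i) (e j)

theorem norm_sand {B : Type*} [CStarAlgebra B] {x y d e : B} (m : B) (hd : ‖d‖ ≤ 1)
    (he : ‖e‖ ≤ 1) : ‖star (x * d) * m * (y * e)‖ ≤ ‖star x * m * y‖ := by
  rw [show star (x * d) * m * (y * e) = star d * (star x * m * y) * e by
    simp only [star_mul, mul_assoc]]
  refine norm_mul₃_le.trans ?_
  rw [norm_star]
  calc ‖d‖ * ‖star x * m * y‖ * ‖e‖ ≤ 1 * ‖star x * m * y‖ * 1 := by gcongr
    _ = _ := by ring

theorem diag_unit [Finite ι] (hA : Diag A) (a : ι → A) (S : Set (ι × ι × unitary (Unitization ℂ A)))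
    (hS : S.Finite) : ∀ ε : ℝ, 0 < ε → ∃ t : ι → A, (∀ i, ‖t i‖ ≤ 1) ∧
      (∀ i, ‖star (a i * t i) * (a i * t i) - star (a i) * a i‖ < ε) ∧
      ∀ p ∈ S, p.1 ≠ p.2.1 → ‖star ((a p.1 * t p.1 : A) : Unitization ℂ A) * p.2.2 *
        (a p.2.1 * t p.2.1 : A)‖ < ε := by
  classical
  induction S, hS using Set.Finite.induction_on with
  | empty =>
    intro ε hε
    obtain ⟨d, h1, h2, -⟩ := diag_fin hA a hε
    exact ⟨d, h1, h2, fun _ h => h.elim⟩
  | @insert p S _ _ ih =>
    intro ε hε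
    obtain ⟨i, j, u⟩ := p
    obtain ⟨t, h1, h2, h3⟩ := ih (ε / 2) (half_pos hε)
    obtain ⟨y, hy⟩ := ex_mul u (a j * t j)
    have h4 : ∀ z w : A, star (y * z) * (y * w) = star (a j * t j * z) * (a j * t j * w) := by
      intro z w
      apply Unitization.inr_injective (R := ℂ)
      simp only [Unitization.inr_mul, Unitization.inr_star, hy, star_mul, mul_assoc]
      rw [← mul_assoc (star (u : Unitization ℂ A)), Unitary.coe_star_mul_self, one_mul]
    have h5 : star y * y = star (a j * t j) * (a j * t j) := by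
      apply Unitization.inr_injective (R := ℂ)
      simp only [Unitization.inr_mul, Unitization.inr_star, hy, star_mul, mul_assoc]
      rw [← mul_assoc (star (u : Unitization ℂ A)), Unitary.coe_star_mul_self, one_mul]
    obtain ⟨d, k1, k2, k3⟩ := diag_fin hA (fun k => if k = j then y else a k * t k) (half_pos hε)
    refine ⟨fun k => t k * d k, fun k => (norm_mul_le _ _).trans (mul_le_one₀ (h1 k)
      (norm_nonneg _) (k1 k)), fun k => ?_, fun q hq hne => ?_⟩
    · have k4 : ‖star (a k * t k * d k) * (a k * t k * d k) -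
          star (a k * t k) * (a k * t k)‖ < ε / 2 := by
        have k5 := k2 k
        by_cases h : k = j
        · subst h
          rwa [if_pos rfl, h4, h5] at k5
        · rwa [if_neg h] at k5
      rw [← mul_assoc (a k), ← sub_add_sub_cancel _ (star (a k * t k) * (a k * t k))]
      exact (norm_add_le _ _).trans_lt (by linarith [h2 k])
    · rcases hq with rfl | hq
      · have k5 := k3 i j hne
        rw [if_neg hne, if_pos rfl, ← Unitization.norm_inr (𝕜 := ℂ)] at k5
        refine lt_of_eq_of_lt ?_ (k5.trans (half_lt_self hε))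
        simp only [Unitization.inr_mul, Unitization.inr_star, hy, mul_assoc]
      · rw [← mul_assoc, ← mul_assoc (a q.2.1), Unitization.inr_mul, Unitization.inr_mul _ _ (d _)]
        refine (norm_sand _ ?_ ?_).trans_lt ((h3 q hq hne).trans (half_lt_self hε)) <;>
          rw [Unitization.norm_inr] <;> exact k1 _

/-- diagonalization relative to finitely many elements of the unitization -/
theorem diag_mult [Finite ι] (hA : Diag A) (a : ι → A) (M : Set (Unitization ℂ A))
    (hM : M.Finite) {ε : ℝ} (hε : 0 < ε) : ∃ t : ι → A, (∀ i, ‖t i‖ ≤ 1) ∧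
      (∀ i, ‖star (a i * t i) * (a i * t i) - star (a i) * a i‖ < ε) ∧
      ∀ i j, i ≠ j → ∀ m ∈ M,
        ‖star ((a i * t i : A) : Unitization ℂ A) * m * (a j * t j : A)‖ < ε := by
  choose u c h1 h2 using CStarAlgebra.exists_sum_four_unitary (A := Unitization ℂ A)
  obtain ⟨C, hC⟩ := (hM.image norm).bddAbove
  have hD : 0 < 2 * |C| + 1 := by positivity
  obtain ⟨t, k1, k2, k3⟩ := diag_unit hA a
    (Set.univ ×ˢ Set.univ ×ˢ ⋃ m ∈ M, Set.range (u m)) (Set.finite_univ.prod (Set.finite_univ.prod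
      (hM.biUnion fun m _ => Set.finite_range _))) (ε / (2 * |C| + 1)) (by positivity)
  have h3 : ε / (2 * |C| + 1) ≤ ε := div_le_self hε.le (by linarith [abs_nonneg C])
  refine ⟨t, k1, fun i => (k2 i).trans_le h3, fun i j h m hm => ?_⟩
  have h4 : ‖m‖ ≤ |C| := (hC ⟨m, hm, rfl⟩).trans (le_abs_self C)
  have h5 : ∀ r, ‖c m r • (star ((a i * t i : A) : Unitization ℂ A) * u m r *
      (a j * t j : A))‖ ≤ |C| / 2 * (ε / (2 * |C| + 1)) := fun r => by
    rw [norm_smul]
    refine mul_le_mul ((h2 m r).trans (by linarith)) (k3 (i, j, u m r) ⟨trivial, trivial,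
      Set.mem_biUnion hm ⟨r, rfl⟩⟩ h).le (norm_nonneg _) (by positivity)
  rw [h1 m, Finset.mul_sum, Finset.sum_mul]
  simp only [mul_smul_comm, smul_mul_assoc]
  refine ((norm_sum_le _ _).trans (Finset.sum_le_sum fun r _ => h5 r)).trans_lt ?_
  rw [Finset.sum_const, Finset.card_univ, Fintype.card_fin, nsmul_eq_mul, ← mul_assoc,
    ← mul_div_assoc, div_lt_iff₀ hD]
  push_cast
  nlinarith

/-- the same for finitely many elements of `A`, and for `1` -/
theorem diag_rel [Finite ι] (hA : Diag A) (a : ι → A) (M : Set A) (hM : M.Finite) {ε : ℝ}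
    (hε : 0 < ε) : ∃ t : ι → A, (∀ i, ‖t i‖ ≤ 1) ∧
      (∀ i, ‖star (a i * t i) * (a i * t i) - star (a i) * a i‖ < ε) ∧
      ∀ i j, i ≠ j → ‖star (a i * t i) * (a j * t j)‖ < ε ∧
        ∀ m ∈ M, ‖star (a i * t i) * m * (a j * t j)‖ < ε := by
  obtain ⟨t, h1, h2, h3⟩ := diag_mult hA a (insert 1 (Unitization.inr '' M))
    ((hM.image _).insert _) hε
  refine ⟨t, h1, h2, fun i j h => ⟨?_, fun m hm => ?_⟩⟩
  · have h4 := h3 i j h 1 (Set.mem_insert _ _)
    rwa [mul_one, ← Unitization.inr_star, ← Unitization.inr_mul, Unitization.norm_inr] at h4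
  · have h4 := h3 i j h m (Set.mem_insert_of_mem _ ⟨m, hm, rfl⟩)
    rwa [← Unitization.inr_star, ← Unitization.inr_mul, ← Unitization.inr_mul,
      Unitization.norm_inr] at h4

theorem diag_of_pi [PartialOrder A] [StarOrderedRing A] (h : PurelyInfinite A) : Diag A :=
  diag_of_eltPI A (eltPI_of A h)

end Vale.Agent.P133OG
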